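import Vale.Agent.P250.Stmt

namespace Vale.Agent.N250

open Vale.Agent.P250.S

/-- The hypotheses of the question for an open subset `M` of a complex vector space: `M` is simply
connected and carries a complete Kaehler metric with sectional curvatures between two negative
constants. -/
def PinchedKaehler {E : Type*} [NormedAddCommGroup E] [NormedSpace ℂ E] (M : Set E) : Prop :=
  IsOpen M ∧ SimplyConnectedSpace M ∧
    ∃ (g : E → E → E → ℝ) (Γ : E → E → E → E),
      IsKaehlerMetric g M ∧ IsLeviCivita g Γ M ∧ GeodesicallyComplete Γ M ∧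
      ∃ a b : ℝ, 0 < a ∧ a ≤ b ∧ ∀ p ∈ M, ∀ X Y, LinearIndependent ℝ ![X, Y] →
        -b ≤ sectional g Γ p X Y ∧ sectional g Γ p X Y ≤ -a

end Vale.Agent.N250
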