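import Vale.Agent.P250.H3.Fam
import Mathlib.Analysis.Complex.BranchLogRoot
import Mathlib.Analysis.Calculus.FDeriv.OfCompLeft
import Mathlib.Topology.Instances.Matrix

/-!
The Jacobian obstruction: a bounded holomorphic map from the disc bundle to a space of the same
dimension without critical point on the zero section gives a zero-free function of small growth.
-/

set_option maxSynthPendingDepth 3
set_option linter.unusedSectionVars false

namespace Vale.Agent.N250

open Set Filter Topology Metric Vale.Agent.P250 Vale.Agent.P250.G Vale.Agent.P250.H3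

section Tools

variable {E : Type*} [NormedAddCommGroup E] [NormedSpace ℂ E]

/-- A holomorphic logarithm on a convex open set. -/
lemma exists_log {U : Set E} (hU : IsOpen U) (hc : Convex ℝ U) (hne : U.Nonempty) {b : E → ℂ}
    (hb : DifferentiableOn ℂ b U) (h0 : ∀ q ∈ U, b q ≠ 0) :
    ∃ L : E → ℂ, DifferentiableOn ℂ L U ∧ ∀ q ∈ U, Complex.exp (L q) = b q := by
  have hs : IsSimplyConnected U := by
    have := hc.contractibleSpace hne
    exact SimplyConnectedSpace.ofContractible U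
  obtain ⟨L, hL, hLb⟩ := Complex.exists_continuousOn_eqOn_exp_comp hs hU hb.continuousOn
    (by rintro ⟨q, hq, h⟩; exact h0 q hq h)
  refine ⟨L, fun q hq => ?_, fun q hq => hLb hq⟩
  have h1 := (Complex.hasDerivAt_exp (L q)).hasFDerivAt
  have h2 := (hb.differentiableAt (hU.mem_nhds hq)).hasFDerivAt
  have h3 := h1.of_comp_of_leftInverse
    (f'symm := (Complex.exp (L q))⁻¹ • ContinuousLinearMap.id ℂ ℂ)
    (hL.continuousAt (hU.mem_nhds hq)) h2
    (by filter_upwards [hU.mem_nhds hq] with x hx using hLb hx) (fun x => by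
      have := Complex.exp_ne_zero (L q)
      simp
      field_simp)
  exact h3.differentiableAt.differentiableWithinAt

/-- The Cauchy estimate in one direction. -/
lemma cauchy_dir {Y : Type*} [NormedAddCommGroup Y] [NormedSpace ℂ Y] {M : Set E} (hM : IsOpen M)
    {F : E → Y} (hF : DifferentiableOn ℂ F M) {C : ℝ} (hC : ∀ x ∈ M, ‖F x‖ ≤ C) {p v : E} {r : ℝ}
    (hr : 0 < r) (h : ∀ t : ℂ, ‖t‖ < r → p + t • v ∈ M) : ‖fderiv ℂ F p v‖ ≤ 2 * C / r := by
  have hp : p ∈ M := by simpa using h 0 (by simpa using hr)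
  have h1 : HasDerivAt (fun t : ℂ => p + t • v) v 0 := by
    simpa using ((hasDerivAt_id (0 : ℂ)).smul_const v).const_add p
  have h2 : HasFDerivAt F (fderiv ℂ F p) (p + (0 : ℂ) • v) := by
    simpa using (hF.differentiableAt (hM.mem_nhds hp)).hasFDerivAt
  have h3 := (h2.comp_hasDerivAt (0 : ℂ) h1).deriv
  have hd : DifferentiableOn ℂ (fun t : ℂ => F (p + t • v)) (ball 0 r) :=
    hF.comp (by fun_prop) fun t ht => h t (mem_ball_zero_iff.1 ht)
  have h4 := Complex.norm_deriv_le_of_forall_mem_sphere_norm_le (half_pos hr)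
    ((hd.mono (closedBall_subset_ball (half_lt_self hr))).diffContOnCl_ball le_rfl) (C := C)
    (fun t ht => hC _ (h t (by rw [mem_sphere_zero_iff_norm.1 ht]; exact half_lt_self hr)))
  have h5 : deriv (fun t : ℂ => F (p + t • v)) 0 = fderiv ℂ F p v := h3
  rw [h5] at h4
  refine h4.trans (le_of_eq ?_)
  field_simp

end Tools

variable {W : Type*} [NormedAddCommGroup W] [InnerProductSpace ℂ W] [FiniteDimensional ℂ W]

lemma mem_zero {χ : (ℂ × ℂ) × W → ℝ} {x : (ℂ × ℂ) × W} (hx : x ∈ DDG W) :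
    ((x, 0) : ((ℂ × ℂ) × W) × ℂ) ∈ MMg (DDG W) χ := ⟨hx, by simp⟩

lemma mem_fibre {χ : (ℂ × ℂ) × W → ℝ} {x : (ℂ × ℂ) × W} (hx : x ∈ DDG W) {t : ℂ}
    (ht : ‖t‖ < Real.exp (-χ x)) : ((x, t) : ((ℂ × ℂ) × W) × ℂ) ∈ MMg (DDG W) χ := by
  refine ⟨hx, ?_⟩
  have h1 : ‖t‖ * Real.exp (χ x) < 1 := by
    rw [Real.exp_neg, ← one_div, lt_div_iff₀ (Real.exp_pos _)] at ht
    exact ht
  have e : ‖t‖ ^ 2 * Real.exp (2 * χ x) = (‖t‖ * Real.exp (χ x)) ^ 2 := by
    rw [mul_pow, ← Real.exp_nat_mul]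
    norm_num
  change ‖t‖ ^ 2 * Real.exp (2 * χ x) < 1
  rw [e]
  exact pow_lt_one₀ (by positivity) h1 two_ne_zero

/-- **The Jacobian along the zero section.** -/
theorem exists_jac (χ : (ℂ × ℂ) × W → ℝ) (hχ : ContinuousOn χ (DDG W))
    (F : ((ℂ × ℂ) × W) × ℂ → ((ℂ × ℂ) × W) × ℂ) (hF : DifferentiableOn ℂ F (MMg (DDG W) χ))
    {C : ℝ} (hC : ∀ x ∈ MMg (DDG W) χ, ‖F x‖ ≤ C)
    (hinj : ∀ q ∈ DD, ∀ v, fderiv ℂ F ((q, 0), 0) v = 0 → v = 0) :
    ∃ J : ℂ × ℂ → ℂ, DifferentiableOn ℂ J DD ∧ (∀ q ∈ DD, J q ≠ 0) ∧ ∃ C' : ℝ, ∀ q ∈ DD,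
      ‖J q‖ ≤ C' * Real.exp (χ (q, 0) - (3 + Module.finrank ℂ W) / 2 * Real.log (rho q)) := by
  classical
  have hM : IsOpen (MMg (DDG W) χ) := GNot.isOpen_MMg _ GNot.isOpen_DDG χ hχ
  set k := Module.finrank ℂ W with hk
  let e := stdOrthonormalBasis ℂ W
  let b : Module.Basis ((Fin 2 ⊕ Fin k) ⊕ Unit) ℂ (((ℂ × ℂ) × W) × ℂ) :=
    ((Module.Basis.finTwoProd ℂ).prod e.toBasis).prod (Module.Basis.singleton Unit ℂ)
  have b0 : b (.inl (.inl 0)) = (((1, 0), 0), 0) := by simp [b, Module.Basis.prod_apply]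
  have b1 : b (.inl (.inl 1)) = (((0, 1), 0), 0) := by simp [b, Module.Basis.prod_apply]
  have b2 : ∀ j, b (.inl (.inr j)) = ((0, e j), 0) := fun j => by
    simp [b, Module.Basis.prod_apply]
  have b3 : ∀ j, b (.inr j) = (0, 1) := fun j => by simp [b, Module.Basis.prod_apply]
  have hdet : Continuous b.det.toMultilinearMap := by
    have h1 : ⇑b.det.toMultilinearMap = fun v => (b.toMatrix v).det :=
      funext fun v => b.det_apply v
    rw [h1]
    refine Continuous.matrix_det (continuous_pi fun i => continuous_pi fun j => ?_)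
    exact (b.coord i).continuous_of_finiteDimensional.comp (continuous_apply j)
  obtain ⟨K, hK0, hK⟩ := b.det.toMultilinearMap.exists_bound_of_continuous hdet
  let D := b.det.toMultilinearMap.mkContinuous K hK
  let A : ℂ × ℂ → _ := fun q => fderiv ℂ F ((q, 0), 0)
  have hz : ∀ q ∈ DD, (((q, 0), 0) : ((ℂ × ℂ) × W) × ℂ) ∈ MMg (DDG W) χ :=
    fun q hq => GNot.mem_MMg_zero hq
  refine ⟨fun q => b.det fun i => A q (b i), ?_, fun q hq => ?_, K * (2 * C) ^ (3 + k),
    fun q hq => ?_⟩
  · have h1 : DifferentiableOn ℂ (fun q => fun i => A q (b i)) DD := by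
      refine differentiableOn_pi.2 fun i => ?_
      exact (differentiableOn_fderiv_apply hM hF (b i)).comp (by fun_prop) hz
    exact (D.contDiff (n := 1)).differentiable one_ne_zero |>.comp_differentiableOn h1
  · have h1 := b.det_comp (A q).toLinearMap b
    rw [b.det_self, mul_one] at h1
    have h2 : IsUnit (A q).toLinearMap :=
      (LinearMap.isUnit_iff_ker_eq_bot _).2 (LinearMap.ker_eq_bot'.2 (hinj q hq))
    have h3 := ((LinearMap.isUnit_iff_isUnit_det _).1 h2).ne_zero
    rw [← h1] at h3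
    exact h3
  have hρ : 0 < rho q := hq
  set x0 : ℝ := q.1.im with hx0
  let u := Function.update b (.inl (.inl 0))
    (b (.inl (.inl 0)) + (2 * x0 : ℂ) • b (.inl (.inl 1)))
  let R : (Fin 2 ⊕ Fin k) ⊕ Unit → ℝ :=
    Sum.elim (Sum.elim ![Real.sqrt (rho q), rho q] fun _ => Real.sqrt (rho q))
      fun _ => Real.exp (-χ (q, 0))
  have hsq : 0 < Real.sqrt (rho q) := Real.sqrt_pos.2 hρ
  have hlt : ∀ t : ℝ, |t| < Real.sqrt (rho q) → t ^ 2 < rho q := fun t ht => by
    rw [← Real.sq_sqrt hρ.le]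
    exact sq_lt_sq' (abs_lt.1 ht).1 (abs_lt.1 ht).2
  have hu : ∀ i, ‖A q (u i)‖ ≤ 2 * C / R i := by
    rintro ((i | j) | j)
    · fin_cases i
      · refine cauchy_dir hM hF hC hsq fun t ht => ?_
        have h1 : (((q, 0), 0) : ((ℂ × ℂ) × W) × ℂ) + t • u (.inl (.inl 0)) =
            ((q + t • ((1 : ℂ), (2 * x0 : ℂ)), 0), 0) := by
          simp [u, b0, b1]
        erw [h1]
        refine GNot.mem_MMg_zero ?_
        change 0 < rho _
        rw [StarPhi.rho_line, ← hx0, sub_self, add_zero]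
        have := hlt t.im ((Complex.abs_im_le_norm t).trans_lt ht)
        linarith
      · refine cauchy_dir hM hF hC hρ fun t ht => ?_
        have h1 : (((q, 0), 0) : ((ℂ × ℂ) × W) × ℂ) + t • u (.inl (.inl 1)) =
            (((q.1, q.2 + t), 0), 0) := by
          simp [u, b1, Prod.ext_iff]
        erw [h1]
        refine GNot.mem_MMg_zero ?_
        change 0 < rho _
        have h2 : -rho q < t.im := (abs_lt.1 ((Complex.abs_im_le_norm t).trans_lt ht)).1
        simp only [rho, Complex.add_im] at h2 ⊢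
        linarith
    · refine cauchy_dir hM hF hC hsq fun t ht => ?_
      have h1 : (((q, 0), 0) : ((ℂ × ℂ) × W) × ℂ) + t • u (.inl (.inr j)) = ((q, t • e j), 0) := by
        simp [u, b2]
      rw [h1]
      refine mem_zero ?_
      change 0 < rho q - ‖t • e j‖ ^ 2
      rw [norm_smul, e.orthonormal.1 j, mul_one]
      have := hlt ‖t‖ (by rwa [abs_norm])
      linarith
    · refine cauchy_dir hM hF hC (Real.exp_pos _) fun t ht => ?_
      have h1 : (((q, 0), 0) : ((ℂ × ℂ) × W) × ℂ) + t • u (.inr j) = ((q, 0), t) := by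
        simp [u, b3]
      rw [h1]
      exact mem_fibre (GNot.mem_DDG hq) ht
  have h1 : (fun i => A q (u i)) = Function.update (fun i => A q (b i)) (.inl (.inl 0))
      (A q (b (.inl (.inl 0))) + (2 * x0 : ℂ) • A q (b (.inl (.inl 1)))) := by
    funext i
    by_cases hi : i = .inl (.inl 0)
    · subst hi
      simp only [u, Function.update_self, map_add, map_smul]
    · simp only [u, Function.update_of_ne hi]
  have h2 : b.det (fun i => A q (u i)) = b.det fun i => A q (b i) := by
    rw [h1, AlternatingMap.map_update_add, AlternatingMap.map_update_smul,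
      b.det.map_update_self (fun i => A q (b i)) (i := .inl (.inl 0)) (j := .inl (.inl 1))
        (by simp), smul_zero, add_zero]
    congr 1
    exact Function.update_eq_self _ _
  have h3 := hK fun i => A q (u i)
  have h4 : ∏ i, ‖A q (u i)‖ ≤ ∏ i, 2 * C / R i :=
    Finset.prod_le_prod (fun i _ => norm_nonneg _) fun i _ => hu i
  have h5 : ∏ i, 2 * C / R i = (2 * C) ^ (3 + k) *
      Real.exp (χ (q, 0) - (3 + k) / 2 * Real.log (rho q)) := by
    have e1 : Real.sqrt (rho q) = Real.exp (Real.log (rho q) / 2) := by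
      rw [Real.exp_half, Real.exp_log hρ]
    have e2 : rho q = Real.exp (Real.log (rho q) / 2) ^ 2 := by rw [← e1, Real.sq_sqrt hρ.le]
    have e3 : Real.exp (χ (q, 0) - (3 + k) / 2 * Real.log (rho q)) =
        (Real.exp (-χ (q, 0)))⁻¹ / Real.exp (Real.log (rho q) / 2) ^ (3 + k) := by
      rw [← Real.exp_nat_mul, Real.exp_neg, inv_inv, ← Real.exp_sub]
      congr 1
      push_cast
      ring
    rw [e3, Fintype.prod_sum_type, Fintype.prod_sum_type, Fin.prod_univ_two]
    simp only [R, Sum.elim_inl, Sum.elim_inr, Matrix.cons_val_zero, Matrix.cons_val_one,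
      Finset.prod_const, Finset.card_univ, Fintype.card_fin, Fintype.card_unit, pow_one, e1]
    generalize Real.exp (Real.log (rho q) / 2) = y at e2
    have hy : y ≠ 0 := by
      rintro rfl
      rw [e2] at hρ
      simp at hρ
    rw [e2, div_pow]
    field_simp
    ring
  change ‖b.det fun i => A q (b i)‖ ≤ _
  rw [← h2, mul_assoc, ← h5]
  exact h3.trans (mul_le_mul_of_nonneg_left h4 hK0.le)

end Vale.Agent.N250
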