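import Vale.Agent.N250.Rig
import Vale.Agent.N250.Defs

/-!
The two families of counterexamples in `ℂⁿ`, `n ≥ 3`.
-/

set_option maxSynthPendingDepth 3

namespace Vale.Agent.N250

open Set Filter Topology Metric Vale.Agent.P250 Vale.Agent.P250.G Vale.Agent.P250.H3

section Gen

variable {E E' E'' : Type*} [NormedAddCommGroup E] [NormedSpace ℂ E] [NormedAddCommGroup E']
  [NormedSpace ℂ E'] [NormedAddCommGroup E''] [NormedSpace ℂ E'']

lemma biholo_trans {M : Set E} {M' : Set E'} {M'' : Set E''} (h : Biholomorphic M M')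
    (h' : Biholomorphic M' M'') : Biholomorphic M M'' := by
  obtain ⟨F, G, a1, a2, a3, a4, a5, a6⟩ := h
  obtain ⟨F', G', b1, b2, b3, b4, b5, b6⟩ := h'
  refine ⟨F' ∘ F, G ∘ G', b1.comp a1 a3, a2.comp b2 b4, b3.comp a3, a4.comp b4,
    fun p hp => ?_, fun q hq => ?_⟩
  · simp only [Function.comp_apply]
    rw [b5 _ (a3 hp), a5 p hp]
  · simp only [Function.comp_apply]
    rw [a6 _ (b4 hq), b6 q hq]

lemma biholo_equiv (e : E ≃L[ℂ] E') (M : Set E) : Biholomorphic M (e.symm ⁻¹' M) :=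
  ⟨e, e.symm, e.differentiable.differentiableOn, e.symm.differentiable.differentiableOn,
    fun x hx => by simpa using hx, fun _ hx => hx, fun x _ => e.symm_apply_apply x,
    fun x _ => e.apply_symm_apply x⟩

lemma not_bdd {M : Set E} (hM : IsOpen M) (h : ∀ F : E → E, DifferentiableOn ℂ F M →
    (∃ C : ℝ, ∀ x ∈ M, ‖F x‖ ≤ C) → ∃ p ∈ M, ∃ v, v ≠ 0 ∧ fderiv ℂ F p v = 0) :
    ¬ S.BiholomorphicToBoundedDomain M := by
  rintro ⟨U, F, G, hU, -, hUb, hF, hG, hFm, -, hGF, -⟩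
  obtain ⟨C, hC⟩ := hUb.exists_norm_le
  obtain ⟨p, hp, v, hv, h0⟩ := h F hF ⟨C, fun x hx => hC _ (hFm hx)⟩
  exact fderiv_ne hM hU hF hG hFm hGF hp hv h0

lemma pinched_of [FiniteDimensional ℂ E] [FiniteDimensional ℂ E'] (e : E ≃L[ℂ] E') {M : Set E}
    (h : ∃ g Γ, IsCex M g Γ) :
    PinchedKaehler (e.symm ⁻¹' M) ∧ ¬ S.BiholomorphicToBoundedDomain (e.symm ⁻¹' M) := by
  obtain ⟨g, Γ, h1, h2, h3, h4, h5, h6, h7⟩ := h
  obtain ⟨M', g', Γ', rfl, i1, i2, i3, i4, i5, i6, i7⟩ :=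
    H154.transport' e _ g Γ h1 h2 h3 h4 h5 h6 h7
  exact ⟨⟨i1, i2, g', Γ', i3, i4, i5, i6⟩, i7⟩

end Gen

lemma exists_equiv (k : ℕ) : Nonempty ((((ℂ × ℂ) × EuclideanSpace ℂ (Fin k)) × ℂ) ≃L[ℂ]
    EuclideanSpace ℂ (Fin (3 + k))) :=
  ⟨ContinuousLinearEquiv.ofFinrankEq (by simp; omega)⟩

/-- Bounded holomorphic functions separate points and directions, but every bounded holomorphic
map to `ℂⁿ` has a critical point. -/
theorem nondegenerate (n : ℕ) (hn : 3 ≤ n) :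
    ∃ M : Set (EuclideanSpace ℂ (Fin n)), PinchedKaehler M ∧ SeparatesPoints M ∧
      (∀ p ∈ M, ∀ v, v ≠ 0 → ∃ f : EuclideanSpace ℂ (Fin n) → ℂ, DifferentiableOn ℂ f M ∧
        (∃ C : ℝ, ∀ x ∈ M, ‖f x‖ ≤ C) ∧ fderiv ℂ f p v ≠ 0) ∧
      (∀ F : EuclideanSpace ℂ (Fin n) → EuclideanSpace ℂ (Fin n), DifferentiableOn ℂ F M →
        (∃ C : ℝ, ∀ x ∈ M, ‖F x‖ ≤ C) → ∃ p ∈ M, ∃ v, v ≠ 0 ∧ fderiv ℂ F p v = 0) ∧
      ¬ S.BiholomorphicToBoundedDomain M := by
  obtain ⟨k, rfl⟩ := Nat.exists_eq_add_of_le hn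
  obtain ⟨e⟩ := exists_equiv k
  obtain ⟨Ψ, lam, ε, h⟩ := exists_wt
  have hε := h.pos
  set c : ℝ := (3 + Module.finrank ℂ (EuclideanSpace ℂ (Fin k))) / 2 with hc
  set s : ℝ := 100 + c / ε with hs
  have hc0 : 0 ≤ c / ε := by positivity
  have hs0 : 0 < s := by linarith
  have hcs : c ≤ s * ε := by
    rw [hs, add_mul, div_mul_cancel₀ _ hε.ne']
    linarith
  have hM := h.isOpen (W := EuclideanSpace ℂ (Fin k)) (s := s)
  have hcrit := h.critical hcs
  obtain ⟨h1, h2⟩ := pinched_of e (h.isCex hs0 (not_bdd hM hcrit))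
  have hf1 := h.hasFun (W := EuclideanSpace ℂ (Fin k)) (s := s) (N := 1) (by push_cast; linarith)
  have hf2 := h.hasFun (W := EuclideanSpace ℂ (Fin k)) (s := s) (N := 1 + 1)
    (by push_cast; linarith)
  have hb := biholo_equiv e (MMg (DDG (EuclideanSpace ℂ (Fin k))) (chi _ Ψ lam ε s))
  refine ⟨_, h1, (separates (h.mono hs0) le_rfl hf1 hf2).map hb, fun p hp v hv => ?_,
    fun F hF hC => ?_, h2⟩
  · by_contra hcon
    push Not at hcon
    have h3 : Stat _ p v := fun f hf => hcon f hf.1 hf.2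
    have h4 := h3.map h1.1 hM e.symm.differentiable.differentiableOn (fun _ hx => hx) hp
    rw [e.symm.fderiv] at h4
    obtain ⟨f, hf, hfC, hf0⟩ := hf1 _ (fst_mem hp)
    have h5 := fibre_zero hM hp h4 (by simpa using hv) (f := fun y => f y.1) (N := 0)
      (BH_F4 (h.mono hs0) hf hfC)
    rw [pow_zero, mul_one] at h5
    exact hf0 h5
  · obtain ⟨C, hC⟩ := hC
    have hem : ∀ x ∈ MMg (DDG (EuclideanSpace ℂ (Fin k))) (chi _ Ψ lam ε s),
        e x ∈ e.symm ⁻¹' MMg (DDG (EuclideanSpace ℂ (Fin k))) (chi _ Ψ lam ε s) :=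
      fun x hx => by simpa using hx
    obtain ⟨p, hp, v, hv, h0⟩ := hcrit (e.symm ∘ F ∘ e)
      (e.symm.differentiable.comp_differentiableOn
        (hF.comp e.differentiable.differentiableOn hem))
      ⟨‖e.symm.toContinuousLinearMap‖ * C, fun x hx =>
        (e.symm.toContinuousLinearMap.le_opNorm _).trans
          (mul_le_mul_of_nonneg_left (hC _ (hem x hx)) (norm_nonneg _))⟩
    refine ⟨e p, hem p hp, e v, by simpa using hv, ?_⟩
    rw [e.symm.comp_fderiv, e.comp_right_fderiv] at h0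
    simpa using h0

/-- A continuum of pairwise non-biholomorphic counterexamples. -/
theorem continuum (n : ℕ) (hn : 3 ≤ n) :
    ∃ M : ℝ → Set (EuclideanSpace ℂ (Fin n)),
      (∀ s, PinchedKaehler (M s) ∧ ¬ S.BiholomorphicToBoundedDomain (M s)) ∧
      ∀ s t, s ≠ t → ¬ Biholomorphic (M s) (M t) := by
  obtain ⟨k, rfl⟩ := Nat.exists_eq_add_of_le hn
  obtain ⟨e⟩ := exists_equiv k
  obtain ⟨Ψ, lam, ε, h⟩ := exists_wt
  obtain ⟨s0, hs0, hsm⟩ := h.small ε h.pos (by linarith [h.pos])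
  let σ : ℝ → ℝ := fun t => s0 / (1 + Real.exp t)
  have hσ0 : ∀ t, 0 < σ t := fun t => by positivity
  have hσ1 : ∀ t, σ t < s0 := fun t => div_lt_self hs0 (by linarith [Real.exp_pos t])
  have hσ2 : ∀ s t, s < t → σ t < σ s := fun s t hst =>
    div_lt_div_of_pos_left hs0 (by positivity) (by linarith [Real.exp_lt_exp.2 hst])
  have hN := fun t => hsm _ (hσ0 t) (hσ1 t)
  have key : ∀ s t, s < t → ¬ Biholomorphic
      (e.symm ⁻¹' MMg (DDG (EuclideanSpace ℂ (Fin k))) (chi _ Ψ lam ε (σ t)))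
      (e.symm ⁻¹' MMg (DDG (EuclideanSpace ℂ (Fin k))) (chi _ Ψ lam ε (σ s))) :=
    fun s t hst hb => h.rigid (hσ0 t) (hσ2 s t hst) (hN t) (hN s)
      (biholo_trans (biholo_trans (biholo_equiv e _) hb) (biholo_equiv e _).symm)
  refine ⟨fun t => e.symm ⁻¹' MMg (DDG (EuclideanSpace ℂ (Fin k))) (chi _ Ψ lam ε (σ t)),
    fun t => pinched_of e (h.isCex (hσ0 t) ?_), fun s t hst hb => ?_⟩
  · refine transfer_biholo (not_biholo_G _ h.smooth.continuousOn ?_)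
    simpa only [chi_zero] using hN t
  · rcases lt_or_gt_of_ne hst with h1 | h1
    · exact key s t h1 hb.symm
    · exact key t s h1 hb

end Vale.Agent.N250
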