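import Vale.Agent.N250.Wt

/-!
Rigidity: for small parameters the bundles with weights `s φ`, `s' φ`, `s ≠ s'`, are not
biholomorphic.
-/

set_option maxSynthPendingDepth 3
set_option linter.unusedSectionVars false

namespace Vale.Agent.N250

open Set Filter Topology Metric Vale.Agent.P250 Vale.Agent.P250.G Vale.Agent.P250.H3

section Gen

variable {E E' : Type*} [NormedAddCommGroup E] [NormedSpace ℂ E] [NormedAddCommGroup E']
  [NormedSpace ℂ E']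

/-- all bounded holomorphic functions are stationary at `p` in the direction `v` -/
def Stat (M : Set E) (p v : E) : Prop := ∀ F : E → ℂ, BH M F → fderiv ℂ F p v = 0

lemma Stat.map {M : Set E} {M' : Set E'} (hM : IsOpen M) (hM' : IsOpen M') {Φ : E → E'}
    (hΦ : DifferentiableOn ℂ Φ M) (hm : MapsTo Φ M M') {p v : E} (hp : p ∈ M) (h : Stat M p v) :
    Stat M' (Φ p) (fderiv ℂ Φ p v) := by
  intro F hF
  have h1 := h _ (hF.comp hΦ hm)
  have h2 := fderiv_comp p (hF.1.differentiableAt (hM'.mem_nhds (hm hp)))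
    (hΦ.differentiableAt (hM.mem_nhds hp))
  have h3 : fderiv ℂ (F ∘ Φ) p v = 0 := h1
  rw [h2] at h3
  exact h3

lemma fderiv_ne {M : Set E} {M' : Set E'} (hM : IsOpen M) (hM' : IsOpen M') {Φ : E → E'}
    {G : E' → E} (hΦ : DifferentiableOn ℂ Φ M) (hG : DifferentiableOn ℂ G M') (hm : MapsTo Φ M M')
    (hGΦ : ∀ p ∈ M, G (Φ p) = p) {p v : E} (hp : p ∈ M) (hv : v ≠ 0) : fderiv ℂ Φ p v ≠ 0 := by
  intro h
  have h2 := fderiv_comp p (hG.differentiableAt (hM'.mem_nhds (hm hp)))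
    (hΦ.differentiableAt (hM.mem_nhds hp))
  have h3 : G ∘ Φ =ᶠ[𝓝 p] id := by
    filter_upwards [hM.mem_nhds hp] with x hx using hGΦ x hx
  rw [h3.fderiv_eq, fderiv_id] at h2
  have h4 := congrArg (fun L => L v) h2
  simp only [ContinuousLinearMap.id_apply, ContinuousLinearMap.comp_apply, h, map_zero] at h4
  exact hv h4

lemma Stat.hasDerivAt {M : Set E} (hM : IsOpen M) {p v : E} (hp : p ∈ M) (h : Stat M p v)
    {F : E → ℂ} (hF : BH M F) : HasDerivAt (fun t : ℂ => F (p + t • v)) 0 0 := by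
  have h1 : HasDerivAt (fun t : ℂ => p + t • v) v 0 := by
    simpa using ((hasDerivAt_id (0 : ℂ)).smul_const v).const_add p
  have h2 : HasFDerivAt F (fderiv ℂ F p) (p + (0 : ℂ) • v) := by
    simpa using (hF.1.differentiableAt (hM.mem_nhds hp)).hasFDerivAt
  have h3 := h2.comp_hasDerivAt (0 : ℂ) h1
  rwa [h F hF] at h3

end Gen

variable {W : Type*} [NormedAddCommGroup W] [InnerProductSpace ℂ W] [FiniteDimensional ℂ W]
variable {Ψ : ℂ → ℝ} {lam ε s s' : ℝ}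

/-- a stationary direction is vertical -/
lemma base_zero {χ : (ℂ × ℂ) × W → ℝ} (hM : IsOpen (MMg (DDG W) χ)) {x v : ((ℂ × ℂ) × W) × ℂ}
    (hx : x ∈ MMg (DDG W) χ) (h : Stat (MMg (DDG W) χ) x v) : v.1 = 0 := by
  have lin : ∀ a b : ℂ, HasDerivAt (fun t : ℂ => a + t * b) b 0 := fun a b => by
    simpa using ((hasDerivAt_id (0 : ℂ)).mul_const b).const_add a
  have g1 : HasDerivAt (fun t : ℂ => (x + t • v).1.1.2) v.1.1.2 0 := lin _ _
  have g0 : HasDerivAt (fun t : ℂ => (x + t • v).1.1.1) v.1.1.1 0 := lin _ _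
  have d1 : (x + (0 : ℂ) • v).1.1.2 + Complex.I ≠ 0 := by simpa using den1_ne hx
  have d2 : (x + (0 : ℂ) • v).1.1.2 - 2 * (x + (0 : ℂ) • v).1.1.1 + 2 * Complex.I ≠ 0 := by
    simpa using den2_ne hx
  have v2 : v.1.1.2 = 0 := by
    have a3 := (h.hasDerivAt hM hx (BH_F1 χ)).unique ((g1.add_const Complex.I).inv d1)
    by_contra hc
    exact (div_ne_zero (neg_ne_zero.2 hc) (pow_ne_zero 2 d1)) a3.symm
  have v1 : v.1.1.1 = 0 := by
    have a3 := (h.hasDerivAt hM hx (BH_F2 χ)).unique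
      (((g1.sub (g0.const_mul 2)).add_const (2 * Complex.I)).inv d2)
    have a5 : -(v.1.1.2 - 2 * v.1.1.1) = 0 := by
      by_contra hc
      exact (div_ne_zero hc (pow_ne_zero 2 d2)) a3.symm
    rw [v2] at a5
    linear_combination (1 / 2 : ℂ) * a5
  have vw : v.1.2 = 0 := by
    have a0 : HasDerivAt (fun t : ℂ => (inner ℂ v.1.2 (x + t • v).1.2 : ℂ))
        (inner ℂ v.1.2 v.1.2) 0 := by
      have := lin (inner ℂ v.1.2 x.1.2) (inner ℂ v.1.2 v.1.2)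
      simpa [inner_add_right, inner_smul_right] using this
    have a3 := (h.hasDerivAt hM hx (BH_F3 χ v.1.2)).unique
      (a0.mul ((g1.add_const Complex.I).inv d1))
    rw [v2] at a3
    simp only [neg_zero, zero_div, mul_zero, add_zero] at a3
    by_contra hc
    exact (mul_ne_zero (inner_self_ne_zero.2 hc) (inv_ne_zero d1)) a3.symm
  exact Prod.ext (Prod.ext v1 v2) vw

/-- the derivative of `f(x) w^N` in a stationary direction -/
lemma fibre_zero {χ : (ℂ × ℂ) × W → ℝ} (hM : IsOpen (MMg (DDG W) χ)) {x v : ((ℂ × ℂ) × W) × ℂ}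
    (hx : x ∈ MMg (DDG W) χ) (h : Stat (MMg (DDG W) χ) x v) (hv : v ≠ 0)
    {f : (ℂ × ℂ) × W → ℂ} {N : ℕ} (hB : BH (MMg (DDG W) χ) fun y => f y.1 * y.2 ^ (N + 1)) :
    f x.1 * x.2 ^ N = 0 := by
  have h1 := base_zero hM hx h
  have h2 : v.2 ≠ 0 := fun h2 => hv (Prod.ext h1 h2)
  have h3 := h.hasDerivAt hM hx hB
  have h4 : HasDerivAt (fun t : ℂ => x.2 + t * v.2) v.2 0 := by
    simpa using ((hasDerivAt_id (0 : ℂ)).mul_const v.2).const_add x.2
  have h5 := (h4.pow (N + 1)).const_mul (f x.1)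
  have h6 : (fun t : ℂ => f (x + t • v).1 * (x + t • v).2 ^ (N + 1)) =
      fun t : ℂ => f x.1 * (x.2 + t * v.2) ^ (N + 1) := by
    funext t
    simp [h1]
  rw [h6] at h3
  have h7 := h3.unique h5
  have h8 : ((N + 1 : ℕ) : ℂ) ≠ 0 := by exact_mod_cast Nat.succ_ne_zero N
  simp only [zero_mul, add_zero, Nat.add_sub_cancel] at h7
  by_contra hc
  refine mul_ne_zero (mul_ne_zero hc h8) h2 ?_
  rw [h7]
  ring

/-- a bounded function which is not stationary on the zero section away from the surface -/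
lemma Wt.BH_off (h : Wt Ψ lam ε) (hs : 0 < s) (w0 : W) : ∃ a : ℕ,
    BH (MMg (DDG W) (chi W Ψ lam ε s))
      fun y => (inner ℂ w0 y.1.2 * (y.1.1.2 + Complex.I)⁻¹) ^ (2 * a) * y.2 ^ (0 + 1) := by
  obtain ⟨a, c, hac⟩ := h.lower hs
  refine ⟨a, ((BH_F3 _ w0).1.pow _).mul (by fun_prop), (‖w0‖ ^ 2) ^ a * Real.exp c,
    fun y hy => ?_⟩
  have hq := fst_mem hy
  have hρ : 0 < rho y.1.1 := hq
  have h1 : ‖y.2‖ * Real.exp (chi W Ψ lam ε s y.1) ≤ 1 := by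
    have h2 : ‖y.2‖ ^ 2 * Real.exp (2 * chi W Ψ lam ε s y.1) < 1 := hy.2
    have e : ‖y.2‖ ^ 2 * Real.exp (2 * chi W Ψ lam ε s y.1) =
        (‖y.2‖ * Real.exp (chi W Ψ lam ε s y.1)) ^ 2 := by
      rw [mul_pow, ← Real.exp_nat_mul]
      norm_num
    rw [e] at h2
    nlinarith
  have h2 : -(a * |Real.log (rho y.1.1)|) - c ≤ chi W Ψ lam ε s y.1 := by
    have h3 := h.mono hs y.1 hy.1
    rw [chi_zero] at h3
    exact (hac _ hq).trans h3
  have h3 : 1 + rho y.1.1 ≤ ‖y.1.1.2 + Complex.I‖ := by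
    have e1 := Complex.im_le_norm (y.1.1.2 + Complex.I)
    have e2 : (y.1.1.2 + Complex.I).im = y.1.1.2.im + 1 := by simp
    have e3 : rho y.1.1 = y.1.1.2.im - y.1.1.1.im ^ 2 := rfl
    nlinarith [sq_nonneg y.1.1.1.im]
  have h4 : ‖(inner ℂ w0 y.1.2 * (y.1.1.2 + Complex.I)⁻¹ : ℂ)‖ ^ 2 ≤
      ‖w0‖ ^ 2 * Real.exp (-|Real.log (rho y.1.1)|) := by
    have e1 : ‖(inner ℂ w0 y.1.2 : ℂ)‖ ^ 2 ≤ ‖w0‖ ^ 2 * rho y.1.1 := by
      have e2 : ‖(inner ℂ w0 y.1.2 : ℂ)‖ ≤ ‖w0‖ * ‖y.1.2‖ := norm_inner_le_norm _ _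
      calc _ ≤ (‖w0‖ * ‖y.1.2‖) ^ 2 := by gcongr
        _ = ‖w0‖ ^ 2 * ‖y.1.2‖ ^ 2 := by ring
        _ ≤ _ := by have := (rho_of_mem hy).le; gcongr
    have e3 : rho y.1.1 ≤ Real.exp (-|Real.log (rho y.1.1)|) * (1 + rho y.1.1) ^ 2 := by
      rcases abs_cases (Real.log (rho y.1.1)) with e4 | e4
      · rw [e4.1, Real.exp_neg, Real.exp_log hρ, inv_mul_eq_div, le_div_iff₀ hρ]
        nlinarith
      · rw [e4.1, neg_neg, Real.exp_log hρ]
        nlinarith [mul_pos hρ hρ, mul_pos hρ (mul_pos hρ hρ)]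
    have e5 : 0 < ‖y.1.1.2 + Complex.I‖ := by linarith
    rw [norm_mul, norm_inv, mul_pow, inv_pow, ← div_eq_mul_inv, div_le_iff₀ (by positivity)]
    calc _ ≤ ‖w0‖ ^ 2 * rho y.1.1 := e1
      _ ≤ ‖w0‖ ^ 2 * (Real.exp (-|Real.log (rho y.1.1)|) * (1 + rho y.1.1) ^ 2) := by gcongr
      _ ≤ ‖w0‖ ^ 2 * (Real.exp (-|Real.log (rho y.1.1)|) * ‖y.1.1.2 + Complex.I‖ ^ 2) := by
          gcongr
      _ = _ := by ring
  have h5 : Real.exp (-|Real.log (rho y.1.1)|) ^ a * ‖y.2‖ ≤ Real.exp c := by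
    have e1 : Real.exp (-|Real.log (rho y.1.1)|) ^ a ≤
        Real.exp c * Real.exp (chi W Ψ lam ε s y.1) := by
      rw [← Real.exp_nat_mul, ← Real.exp_add, Real.exp_le_exp]
      linarith
    calc _ ≤ Real.exp c * Real.exp (chi W Ψ lam ε s y.1) * ‖y.2‖ := by gcongr
      _ = Real.exp c * (‖y.2‖ * Real.exp (chi W Ψ lam ε s y.1)) := by ring
      _ ≤ Real.exp c * 1 := by gcongr
      _ = _ := mul_one _
  rw [norm_mul, norm_pow, norm_pow, pow_mul, zero_add, pow_one]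
  calc _ ≤ (‖w0‖ ^ 2 * Real.exp (-|Real.log (rho y.1.1)|)) ^ a * ‖y.2‖ := by gcongr
    _ = (‖w0‖ ^ 2) ^ a * (Real.exp (-|Real.log (rho y.1.1)|) ^ a * ‖y.2‖) := by
        rw [mul_pow]
        ring
    _ ≤ _ := by gcongr

/-- **The degeneracy locus** lies in the surface. -/
theorem Wt.locus (h : Wt Ψ lam ε) (hs : 0 < s) {x v : ((ℂ × ℂ) × W) × ℂ}
    (hx : x ∈ MMg (DDG W) (chi W Ψ lam ε s)) (hst : Stat (MMg (DDG W) (chi W Ψ lam ε s)) x v)
    (hv : v ≠ 0) : x = ((x.1.1, 0), 0) := by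
  have h2 : x.2 = 0 := by
    have hN : 100 ≤ ((⌈100 / s⌉₊ + 1 : ℕ) : ℝ) * s := by
      have h1 := Nat.le_ceil (100 / s)
      rw [div_le_iff₀ hs] at h1
      push_cast
      nlinarith
    obtain ⟨f, hf, hfC, hf0⟩ := h.hasFun (W := W) hN x.1.1 (fst_mem hx)
    have h3 := fibre_zero h.isOpen hx hst hv (f := fun y => f y.1) (BH_F4 (h.mono hs) hf hfC)
    exact pow_eq_zero_iff' |>.1 ((mul_eq_zero.1 h3).resolve_left hf0) |>.1
  have h1 : x.1.2 = 0 := by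
    obtain ⟨a, ha⟩ := h.BH_off hs x.1.2
    have h3 := fibre_zero h.isOpen hx hst hv
      (f := fun y => (inner ℂ x.1.2 y.2 * (y.1.2 + Complex.I)⁻¹) ^ (2 * a)) ha
    rw [pow_zero, mul_one] at h3
    have h4 := (mul_eq_zero.1 (pow_eq_zero_iff'.1 h3).1).resolve_right (inv_ne_zero (den1_ne hx))
    exact inner_self_eq_zero.1 h4
  exact Prod.ext (Prod.ext rfl h1) h2

lemma Wt.stat (h : Wt Ψ lam ε) (hN : NoFunction fun q => s * phi Ψ lam ε q) {q : ℂ × ℂ}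
    (hq : q ∈ DD) : Stat (MMg (DDG W) (chi W Ψ lam ε s)) ((q, 0), 0) (0, 1) := by
  have h1 := H154.flat_G (0 + 1) (chi W Ψ lam ε s) h.smooth.continuousOn (fun j h1 h2 => by
    obtain rfl : j = 1 := by omega
    simpa only [chi_zero, Nat.cast_one, one_mul] using hN) q hq
  exact fun F hF => H154.FlatAt.stationary h.isOpen (GNot.mem_MMg_zero hq) h1 ℂ F hF.1 hF.2

/-- a biholomorphism transports the functions dominated by multiples of the weight -/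
theorem Wt.transfer (h : Wt Ψ lam ε) (hs : 0 < s) (hs' : 0 < s')
    (hN : NoFunction fun q => s * phi Ψ lam ε q) (hN' : NoFunction fun q => s' * phi Ψ lam ε q)
    (hb : Biholomorphic (MMg (DDG W) (chi W Ψ lam ε s)) (MMg (DDG W) (chi W Ψ lam ε s')))
    {t : ℝ} (ht : 0 < t) (hNt : NoFunction fun q => t * s * phi Ψ lam ε q) :
    NoFunction fun q => t * s' * phi Ψ lam ε q := by
  obtain ⟨F, G, hF, hG, hFm, hGm, hGF, hFG⟩ := hb
  have hv : ((0, 1) : ((ℂ × ℂ) × W) × ℂ) ≠ 0 := fun h => one_ne_zero (congrArg Prod.snd h)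
  have hz : ∀ {s : ℝ}, ∀ q ∈ DD, (((q, 0), 0) : ((ℂ × ℂ) × W) × ℂ) ∈
      MMg (DDG W) (chi W Ψ lam ε s) := fun q hq => GNot.mem_MMg_zero hq
  let A : ℂ × ℂ → ℂ × ℂ := fun q => (F ((q, 0), 0)).1.1
  let b : ℂ × ℂ → ℂ := fun q => (fderiv ℂ F ((q, 0), 0) (0, 1)).2
  have hst : ∀ q ∈ DD, Stat _ (F ((q, 0), 0)) (fderiv ℂ F ((q, 0), 0) (0, 1)) := fun q hq =>
    (h.stat hN hq).map h.isOpen h.isOpen hF hFm (hz q hq)
  have hne : ∀ q ∈ DD, fderiv ℂ F ((q, 0), 0) (0, 1) ≠ 0 := fun q hq =>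
    fderiv_ne h.isOpen h.isOpen hF hG hFm hGF (hz q hq) hv
  have hA : ∀ q ∈ DD, F ((q, 0), 0) = ((A q, 0), 0) := fun q hq =>
    h.locus hs' (hFm (hz q hq)) (hst q hq) (hne q hq)
  have hAm : MapsTo A DD DD := fun q hq => fst_mem (hFm (hz q hq))
  have hAd : DifferentiableOn ℂ A DD := (hF.comp (by fun_prop) hz).fst.fst
  have hbd : DifferentiableOn ℂ b DD :=
    ((differentiableOn_fderiv_apply h.isOpen hF (0, 1)).comp (by fun_prop) hz).snd
  have hb0 : ∀ q ∈ DD, b q ≠ 0 := fun q hq h0 =>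
    hne q hq (Prod.ext (base_zero h.isOpen (hFm (hz q hq)) (hst q hq)) h0)
  have hbC : ∀ q ∈ DD, ‖b q‖ * Real.exp (s' * phi Ψ lam ε (A q)) ≤
      2 * Real.exp 1 / Real.exp (-(s * phi Ψ lam ε q)) := by
    intro q hq
    have hmem : MapsTo (fun t : ℂ => (((q, 0), t) : ((ℂ × ℂ) × W) × ℂ))
        (ball 0 (Real.exp (-(s * phi Ψ lam ε q)))) (MMg (DDG W) (chi W Ψ lam ε s)) :=
      fun t ht => mem_fibre (GNot.mem_DDG hq) (by rw [chi_zero]; exact mem_ball_zero_iff.1 ht)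
    have h1 := schwarz isOpen_DDG h.smooth (h.psh hs') (φ := fun t => F ((q, 0), t))
      (Real.exp_pos _) (hF.comp (by fun_prop) hmem) (hFm.comp hmem) (by rw [hA q hq])
    have h2 : HasDerivAt (fun t : ℂ => (((q, 0), t) : ((ℂ × ℂ) × W) × ℂ)) (0, 1) 0 :=
      (hasDerivAt_const _ _).prodMk (hasDerivAt_id _)
    have h3 : HasDerivAt (fun t : ℂ => F ((q, 0), t)) (fderiv ℂ F ((q, 0), 0) (0, 1)) 0 :=
      HasFDerivAt.comp_hasDerivAt (l := F) (0 : ℂ)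
        (hF.differentiableAt (h.isOpen.mem_nhds (hz q hq))).hasFDerivAt h2
    have h4 : HasDerivAt (fun t : ℂ => (F ((q, 0), t)).2) (b q) 0 :=
      (ContinuousLinearMap.snd ℂ ((ℂ × ℂ) × W) ℂ).hasFDerivAt.comp_hasDerivAt (0 : ℂ) h3
    rw [h4.deriv, hA q hq, chi_zero] at h1
    exact h1
  obtain ⟨L, hL, hLb⟩ := exists_log isOpen_DD convex_DD_aux ⟨_, mem_DD_I⟩ hbd hb0
  rintro f hf ⟨C, hC⟩ q1 hq1
  have hst' := (h.stat hN' hq1).map h.isOpen h.isOpen hG hGm (hz q1 hq1)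
  have hG1 := h.locus hs (hGm (hz q1 hq1)) hst'
    (fderiv_ne h.isOpen h.isOpen hG hF hGm hFG (hz q1 hq1) hv)
  set q2 := (G ((q1, 0), 0)).1.1
  have hq2 : q2 ∈ DD := fst_mem (hGm (hz q1 hq1))
  have hA2 : A q2 = q1 := by
    simp only [A]
    rw [← hG1, hFG _ (hz q1 hq1)]
  have h5 := hNt (fun q => f (A q) * Complex.exp (t * L q))
    ((hf.comp hAd hAm).mul (hL.const_mul _).cexp)
    ⟨|C| * Real.exp (t * Real.log (2 * Real.exp 1)), fun q hq => ?_⟩ q2 hq2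
  · rw [hA2] at h5
    exact (mul_eq_zero.1 h5).resolve_right (Complex.exp_ne_zero _)
  have h6 := hbC q hq
  rw [← hLb q hq, Complex.norm_exp, ← Real.exp_add,
    ← Real.exp_log (by positivity : 0 < 2 * Real.exp 1), ← Real.exp_sub, Real.exp_le_exp] at h6
  have h7 : ‖f (A q)‖ ≤ |C| * Real.exp (t * s' * phi Ψ lam ε (A q)) :=
    (hC _ (hAm hq)).trans (mul_le_mul_of_nonneg_right (le_abs_self C) (Real.exp_pos _).le)
  rw [norm_mul, Complex.norm_exp, Complex.re_ofReal_mul]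
  calc _ ≤ |C| * Real.exp (t * s' * phi Ψ lam ε (A q)) * Real.exp (t * (L q).re) := by gcongr
    _ ≤ _ := by
      rw [mul_assoc, mul_assoc |C|, ← Real.exp_add, ← Real.exp_add]
      refine mul_le_mul_of_nonneg_left (Real.exp_le_exp.2 ?_) (abs_nonneg C)
      nlinarith [mul_le_mul_of_nonneg_left h6 ht.le]

/-- **Rigidity.** -/
theorem Wt.rigid (h : Wt Ψ lam ε) (hs : 0 < s) (hss : s < s')
    (hN : NoFunction fun q => s * phi Ψ lam ε q) (hN' : NoFunction fun q => s' * phi Ψ lam ε q) :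
    ¬ Biholomorphic (MMg (DDG W) (chi W Ψ lam ε s)) (MMg (DDG W) (chi W Ψ lam ε s')) := by
  intro hb
  have hs' : 0 < s' := hs.trans hss
  let T : Set ℝ := {t | 0 < t ∧ ¬ NoFunction fun q => t * phi Ψ lam ε q}
  obtain ⟨s0, hs0, hsm⟩ := h.small ε h.pos (by linarith [h.pos])
  have hT : T.Nonempty := by
    obtain ⟨f, hf, hfC, hf0⟩ := h.large 100 le_rfl _ mem_DD_I
    exact ⟨100, by norm_num, fun hn => hf0 (hn f hf hfC _ mem_DD_I)⟩
  have hlow : ∀ t ∈ T, s0 ≤ t := fun t ht => not_lt.1 fun h1 => ht.2 (hsm t ht.1 h1)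
  have hτ : 0 < sInf T := hs0.trans_le (le_csInf hT hlow)
  have h1 : sInf T < sInf T * (s' / s) := lt_mul_of_one_lt_right hτ ((one_lt_div hs).2 hss)
  obtain ⟨t, ht, htl⟩ := exists_lt_of_csInf_lt hT h1
  have h2 : t / s' * s ∈ T := by
    refine ⟨by have := ht.1; positivity, fun hn => ht.2 ?_⟩
    have h3 := h.transfer hs hs' hN hN' hb (div_pos ht.1 hs') hn
    rwa [div_mul_cancel₀ _ hs'.ne'] at h3
  have h4 := csInf_le ⟨s0, hlow⟩ h2
  rw [← mul_div_assoc, lt_div_iff₀ hs] at htl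
  rw [div_mul_eq_mul_div, le_div_iff₀ hs'] at h4
  linarith

end Vale.Agent.N250
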