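import Vale.Agent.N250.Jac
import Mathlib.Analysis.Calculus.DerivativeTest
import Mathlib.Analysis.Complex.RemovableSingularity

/-!
A Schwarz lemma for holomorphic discs in a disc bundle with plurisubharmonic weight.
-/

set_option maxSynthPendingDepth 3

namespace Vale.Agent.N250

open Set Filter Topology Metric Vale.Agent.P250 Vale.Agent.P250.G

/-- At a local maximum the second derivative is nonpositive. -/
lemma snd_nonpos {E : Type*} [NormedAddCommGroup E] [NormedSpace ℝ E] {V : E → ℝ} {p : E}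
    (hV : ContDiffAt ℝ (⊤ : ℕ∞) V p) (h : IsLocalMax V p) (X : E) :
    fderiv ℝ (fderiv ℝ V) p X X ≤ 0 := by
  by_contra hcon
  push Not at hcon
  have hγ : ∀ t : ℝ, HasDerivAt (fun t : ℝ => p + t • X) X t := fun t => by
    simpa using ((hasDerivAt_id t).smul_const X).const_add p
  have hγ0 : Tendsto (fun t : ℝ => p + t • X) (𝓝 0) (𝓝 p) := by
    have := (hγ 0).continuousAt.tendsto
    simpa using this
  have h1 : deriv (fun t : ℝ => V (p + t • X)) =ᶠ[𝓝 0] fun t => fderiv ℝ V (p + t • X) X := by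
    filter_upwards [hγ0.eventually (eventually_contDiffAt hV)] with t ht
    exact ((ht.differentiableAt (by norm_num)).hasFDerivAt.comp_hasDerivAt t (hγ t)).deriv
  have h2 : HasDerivAt (fun t : ℝ => fderiv ℝ V (p + t • X) X) (fderiv ℝ (fderiv ℝ V) p X X) 0 := by
    have h3 : HasFDerivAt (fderiv ℝ V) (fderiv ℝ (fderiv ℝ V) p) (p + (0 : ℝ) • X) := by
      simpa using ((contDiffAt_fderiv hV).differentiableAt (by simp)).hasFDerivAt
    have h6 : HasDerivAt (fun t : ℝ => fderiv ℝ V (p + t • X)) (fderiv ℝ (fderiv ℝ V) p X) 0 :=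
      HasFDerivAt.comp_hasDerivAt (l := fderiv ℝ V) (f := fun t : ℝ => p + t • X) (0 : ℝ) h3 (hγ 0)
    exact (ContinuousLinearMap.apply ℝ ℝ X).hasFDerivAt.comp_hasDerivAt (0 : ℝ) h6
  have h4 : deriv (deriv fun t : ℝ => V (p + t • X)) 0 = fderiv ℝ (fderiv ℝ V) p X X := by
    rw [h1.deriv_eq, h2.deriv]
  have hmax : IsLocalMax (fun t : ℝ => V (p + t • X)) 0 := by
    have := hγ0.eventually h
    simpa [IsLocalMax, IsMaxFilter] using this
  have hc : ContinuousAt (fun t : ℝ => V (p + t • X)) 0 :=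
    ContinuousAt.comp (g := V) (by simpa using hV.continuousAt) (hγ 0).continuousAt
  have hmin := isLocalMin_of_deriv_deriv_pos (by rw [h4]; exact hcon) hmax.deriv_eq_zero hc
  have h5 : (fun t : ℝ => V (p + t • X)) =ᶠ[𝓝 0] fun _ => V (p + (0 : ℝ) • X) := by
    filter_upwards [hmax, hmin] with t h1 h2 using le_antisymm h1 h2
  rw [h5.deriv.deriv_eq] at h4
  simp only [deriv_const', deriv_const] at h4
  exact hcon.ne h4

variable {E : Type*} [NormedAddCommGroup E] [NormedSpace ℂ E] [CompleteSpace E]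

/-- **Schwarz lemma**, up to a universal constant. -/
theorem schwarz {Ω : Set E} (hΩ : IsOpen Ω) {χ : E → ℝ} (hχ : ContDiffOn ℝ (⊤ : ℕ∞) χ Ω)
    (hpsh : ∀ q ∈ Ω, ∀ X, 0 ≤ gP χ q X X) {φ : ℂ → E × ℂ} {r : ℝ} (hr : 0 < r)
    (hφ : DifferentiableOn ℂ φ (ball 0 r)) (hm : MapsTo φ (ball 0 r) (MMg Ω χ))
    (h0 : (φ 0).2 = 0) :
    ‖deriv (fun t => (φ t).2) 0‖ * Real.exp (χ (φ 0).1) ≤ 2 * Real.exp 1 / r := by
  set ψ := dslope (fun t => (φ t).2) 0 with hψ
  have hψd : DifferentiableOn ℂ ψ (ball 0 r) :=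
    (Complex.differentiableOn_dslope (ball_mem_nhds 0 hr)).2 hφ.snd
  have hψ1 : ∀ t, (φ t).2 = t * ψ t := fun t => by
    have := sub_smul_dslope (fun t => (φ t).2) 0 t
    simp only [sub_zero, smul_eq_mul, h0] at this
    exact this.symm
  set ε : ℝ := 4 / r ^ 2 with hε
  have hε0 : 0 < ε := by positivity
  let U : ℂ → ℝ := fun t => ‖ψ t‖ * Real.exp (χ (φ t).1 + ε * ‖t‖ ^ 2)
  have hsub : closedBall (0 : ℂ) (r / 2) ⊆ ball 0 r := closedBall_subset_ball (half_lt_self hr)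
  have hχφ : ContinuousOn (fun t => χ (φ t).1) (ball 0 r) :=
    hχ.continuousOn.comp hφ.continuousOn.fst fun t ht => (hm ht).1
  have hU : ContinuousOn U (closedBall 0 (r / 2)) :=
    ((hψd.continuousOn.norm).mul ((hχφ.add (by fun_prop)).rexp)).mono hsub
  obtain ⟨t0, ht0, hmax⟩ := (isCompact_closedBall (0 : ℂ) (r / 2)).exists_isMaxOn
    ⟨0, mem_closedBall_self (half_pos hr).le⟩ hU
  have hU0 : U 0 ≤ U t0 := hmax (mem_closedBall_self (half_pos hr).le)
  have e0 : U 0 = ‖deriv (fun t => (φ t).2) 0‖ * Real.exp (χ (φ 0).1) := by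
    simp [U, hψ, dslope_same]
  rw [← e0]
  refine hU0.trans ?_
  have ht0' := hsub ht0
  rcases (mem_closedBall_zero_iff.1 ht0).eq_or_lt with heq | hlt
  · have h1 : ‖(φ t0).2‖ ^ 2 * Real.exp (2 * χ (φ t0).1) < 1 := (hm ht0').2
    have h2 : ‖(φ t0).2‖ * Real.exp (χ (φ t0).1) ≤ 1 := by
      have e : ‖(φ t0).2‖ ^ 2 * Real.exp (2 * χ (φ t0).1) =
          (‖(φ t0).2‖ * Real.exp (χ (φ t0).1)) ^ 2 := by
        rw [mul_pow, ← Real.exp_nat_mul]
        norm_num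
      rw [e] at h1
      nlinarith
    rw [hψ1, norm_mul, heq] at h2
    have h3 : ε * ‖t0‖ ^ 2 = 1 := by
      rw [heq, hε]
      field_simp
      norm_num
    simp only [U]
    rw [h3, Real.exp_add, le_div_iff₀ hr]
    nlinarith [Real.exp_pos 1]
  by_cases hz : ψ t0 = 0
  · simp only [U, hz, norm_zero, zero_mul]
    positivity
  exfalso
  have hnb : ball (0 : ℂ) r ∈ 𝓝 t0 := isOpen_ball.mem_nhds ht0'
  have hψa : AnalyticAt ℂ ψ t0 := hψd.analyticAt hnb
  let h : ℂ → ℂ := fun t => Complex.log (ψ t / ψ t0)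
  have hh : ContDiffAt ℂ (⊤ : ℕ∞) h t0 := by
    refine ((hψa.div_const).clog ?_).contDiffAt
    rw [div_self hz]
    exact Complex.one_mem_slitPlane
  have hφ1 : ContDiffAt ℂ (⊤ : ℕ∞) (fun t => (φ t).1) t0 := (hφ.fst.analyticAt hnb).contDiffAt
  have hχ1 : ContDiffAt ℝ (⊤ : ℕ∞) χ (φ t0).1 := hχ.contDiffAt (hΩ.mem_nhds (hm ht0').1)
  have c1 : ContDiffAt ℝ (⊤ : ℕ∞) (fun t => (h t).re) t0 :=
    Complex.reCLM.contDiff.contDiffAt.comp t0 (hh.restrict_scalars ℝ)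
  have c2 : ContDiffAt ℝ (⊤ : ℕ∞) (fun t => χ (φ t).1) t0 :=
    hχ1.comp t0 (hφ1.restrict_scalars ℝ)
  have c3 : ContDiffAt ℝ (⊤ : ℕ∞) (fun t : ℂ => ‖t‖ ^ 2) t0 := (contDiff_norm_sq ℝ).contDiffAt
  let V : ℂ → ℝ := fun t => (h t).re + (χ (φ t).1 + ε * ‖t‖ ^ 2)
  have hV : ContDiffAt ℝ (⊤ : ℕ∞) V t0 := c1.add (c2.add (contDiffAt_const.mul c3))
  have hVU : ∀ t, ψ t ≠ 0 → Real.exp (V t) = U t / ‖ψ t0‖ := by
    intro t ht
    simp only [V, U, h, Complex.log_re]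
    rw [Real.exp_add, Real.exp_log (norm_pos_iff.2 (div_ne_zero ht hz)), norm_div]
    ring
  have hloc : IsLocalMax V t0 := by
    have h1 : closedBall (0 : ℂ) (r / 2) ∈ 𝓝 t0 :=
      mem_of_superset (isOpen_ball.mem_nhds (mem_ball_zero_iff.2 hlt)) ball_subset_closedBall
    filter_upwards [h1, hψa.continuousAt.eventually_ne hz] with t ht1 ht2
    rw [← Real.exp_le_exp, hVU t ht2, hVU t0 hz]
    exact div_le_div_of_nonneg_right (hmax ht1) (norm_nonneg _)
  have h1 : gP V t0 1 1 ≤ 0 := by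
    rw [gP_apply]
    linarith [snd_nonpos hV hloc 1, snd_nonpos hV hloc (Complex.I • 1)]
  have h2 : gP V t0 1 1 = gP χ (φ t0).1 (fderiv ℝ (fun t => (φ t).1) t0 1)
      (fderiv ℝ (fun t => (φ t).1) t0 1) + ε := by
    simp only [V]
    rw [gP_add c1 (c2.add (contDiffAt_const.mul c3)), gP_add c2 (contDiffAt_const.mul c3),
      gP_re h t0 hh, gP_const_mul c3, zero_add, add_apply,
      add_apply, gP_comp χ _ t0 hφ1 hχ1, smul_apply,
      smul_apply, GBase.gP_N]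
    simp
  linarith [hpsh _ (hm ht0').1 (fderiv ℝ (fun t => (φ t).1) t0 1)]

end Vale.Agent.N250
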