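import Vale.Agent.N250.Schwarz
import Vale.Agent.P250.H286.Lower

/-!
The weight `φ` with room in the coefficient of `-log ρ`, and the disc bundles with weight `s φ`.
-/

set_option maxSynthPendingDepth 3
set_option linter.unusedSectionVars false

namespace Vale.Agent.N250

open Set Filter Topology Metric Vale.Agent.P250 Vale.Agent.P250.G Vale.Agent.P250.H3

lemma half {CΨ Λ : ℝ} {Ψ : ℂ → ℝ} (hC : 0 < CΨ) (h : IsPsi CΨ (2 * Λ) Ψ) :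
    IsPsi CΨ Λ fun ζ => 1 / 2 * Ψ ζ := by
  refine ⟨contDiff_const.mul h.smooth, fun ζ hζ => by rw [h.zero ζ hζ, mul_zero],
    fun ζ hζ => by linarith [h.le ζ hζ], by linarith [h.dip], fun ζ hζ X => ?_⟩
  have h1 := gP_const_mul (p := ζ) h.smooth.contDiffAt (1 / 2)
  have h2 : gP (fun q => 1 / 2 * Ψ q) ζ X X = 1 / 2 * gP Ψ ζ X X := by
    rw [h1]
    rfl
  rw [gP_apply, gP_apply] at h2
  have h3 := h.sub ζ hζ X
  simp only [smul_eq_mul] at h2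
  linarith

lemma phi_half (Ψ : ℂ → ℝ) (lam ε : ℝ) (q : ℂ × ℂ) :
    phi Ψ lam ε q = 2 * phi (fun ζ => 1 / 2 * Ψ ζ) lam (ε / 2) q := by
  have h : ∑' k, Sk (fun ζ => 1 / 2 * Ψ ζ) lam k q = 1 / 2 * ∑' k, Sk Ψ lam k q := by
    rw [← tsum_mul_left]
    rfl
  rw [phi, phi, h]
  ring

/-- The data of the weight. -/
structure Wt (Ψ : ℂ → ℝ) (lam ε : ℝ) : Prop where
  psi : ∃ CΨ Λ, IsPsi CΨ Λ Ψ
  two : 2 ≤ lam
  pos : 0 < ε
  small : ∀ ε', 0 < ε' → ε' ≤ 2 * ε →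
    ∃ s0 > 0, ∀ s, 0 < s → s < s0 → NoFunction fun q => s * phi Ψ lam ε' q
  large : ∀ M : ℝ, 100 ≤ M → ∀ q0 ∈ DD, ∃ f : ℂ × ℂ → ℂ, DifferentiableOn ℂ f DD ∧
    (∃ C : ℝ, ∀ q ∈ DD, ‖f q‖ ≤ C * Real.exp (M * phi Ψ lam ε q)) ∧ f q0 ≠ 0

theorem exists_wt : ∃ Ψ lam ε, Wt Ψ lam ε := by
  obtain ⟨CΨ, hC, hΨ⟩ := exists_Psi'
  obtain ⟨Ψ, η, hΨ, hη, hη1, hin, hout⟩ := hΨ (2 * (1000 * ((CΨ + 2) + (CΨ + 2) + 1) + 2))
  have hΨ' := half hC hΨ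
  obtain ⟨lam, hlam3, hlam'⟩ := star_phi' CΨ _ hC _ hΨ'
  have hlam : 2 ≤ lam := by linarith
  have hlog : 0 < Real.log lam := Real.log_pos (by linarith)
  refine ⟨Ψ, lam, 1 / (4 * Real.log lam), ⟨_, _, hΨ⟩, hlam, by positivity, fun ε' h0 h1 => ?_,
    fun M hM q0 hq0 => exists_fun hΨ hη hη1 hin hout hlam3 hM hq0⟩
  have hS := hlam' lam le_rfl (ε' / 2) (half_pos h0) (by linarith)
  obtain ⟨s0, hs0, hs⟩ := noFunction_of_star _ 4 (CΨ + 2) (CΨ + 2) _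
    (phi_contDiffOn CΨ _ _ hΨ' lam (ε' / 2) hlam).continuousOn
    (by norm_num) (by linarith) (by linarith) (by linarith) hS
  refine ⟨s0 / 2, half_pos hs0, fun s h2 h3 => ?_⟩
  have h4 := hs (s * 2) (by positivity) (by linarith)
  simpa only [phi_half Ψ lam ε', mul_assoc] using h4

variable {W : Type*} [NormedAddCommGroup W] [InnerProductSpace ℂ W] [FiniteDimensional ℂ W]
variable {Ψ : ℂ → ℝ} {lam ε s : ℝ}

variable (W) in
/-- the weight on the base -/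
noncomputable def chi (Ψ : ℂ → ℝ) (lam ε s : ℝ) (x : (ℂ × ℂ) × W) : ℝ := s * phiG Ψ lam ε x

lemma chi_zero (q : ℂ × ℂ) : chi W Ψ lam ε s (q, 0) = s * phi Ψ lam ε q := by
  rw [chi, phiG_zero]

lemma Wt.smooth (h : Wt Ψ lam ε) : ContDiffOn ℝ (⊤ : ℕ∞) (chi W Ψ lam ε s) (DDG W) := by
  obtain ⟨CΨ, Λ, hΨ⟩ := h.psi
  exact contDiffOn_const.mul (phiG_contDiffOn (W := W) CΨ _ Ψ hΨ lam ε h.two)

lemma Wt.isOpen (h : Wt Ψ lam ε) : IsOpen (MMg (DDG W) (chi W Ψ lam ε s)) :=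
  GNot.isOpen_MMg _ GNot.isOpen_DDG _ h.smooth.continuousOn

lemma Wt.mono (h : Wt Ψ lam ε) (hs : 0 < s) :
    ∀ x ∈ DDG W, chi W Ψ lam ε s (x.1, 0) ≤ chi W Ψ lam ε s x := by
  intro x hx
  have hx0 : 0 < rhoG x := hx
  have h1 : rhoG x ≤ rho x.1 := by
    have : rhoG x = rho x.1 - ‖x.2‖ ^ 2 := rfl
    nlinarith [sq_nonneg ‖x.2‖]
  have h2 : Real.log (rhoG x) ≤ Real.log (rho x.1) := Real.log_le_log hx0 h1
  rw [chi_zero, chi]
  have h3 : phiG Ψ lam ε x = -ε * Real.log (rhoG x) + ∑' k, Sk Ψ lam k x.1 := rfl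
  have h4 : phi Ψ lam ε x.1 = -ε * Real.log (rho x.1) + ∑' k, Sk Ψ lam k x.1 := rfl
  rw [h3, h4]
  apply mul_le_mul_of_nonneg_left _ hs.le
  nlinarith [h.pos]

lemma Wt.hasFun (h : Wt Ψ lam ε) {N : ℕ} (hN : 100 ≤ (N : ℝ) * s) :
    HasFun (chi W Ψ lam ε s) N := by
  intro q0 hq0
  obtain ⟨f, hf, ⟨C, hC⟩, hf0⟩ := h.large _ hN q0 hq0
  refine ⟨f, hf, ⟨C, fun q hq => ?_⟩, hf0⟩
  rw [chi_zero, ← mul_assoc]
  exact hC q hq

lemma Wt.psh (h : Wt Ψ lam ε) (hs : 0 < s) :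
    ∀ q ∈ DDG W, ∀ X, 0 ≤ gP (chi W Ψ lam ε s) q X X := by
  obtain ⟨CΨ, Λ, hΨ⟩ := h.psi
  obtain ⟨ε0, C0, C3, C4, h0, -, -, -, hU⟩ :=
    phiG_uniformJets (W := W) CΨ _ Ψ hΨ lam ε h.two h.pos s hs
  exact fun q hq X => (gP_pos_of_uniformJetsG _ isOpen_DDG PhiG PhiG_contDiffOn ε0 C0 C3 C4 h0 _
    h.smooth hU q hq X).1

lemma Wt.lower (h : Wt Ψ lam ε) (hs : 0 < s) : ∃ (a : ℕ) (c : ℝ), ∀ q ∈ DD,
    -(a * |Real.log (rho q)|) - c ≤ s * phi Ψ lam ε q := by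
  obtain ⟨CΨ, Λ, hΨ⟩ := h.psi
  obtain ⟨B, hB0, hB⟩ := H286.exists_lower hΨ
  refine ⟨⌈s * (ε + B)⌉₊, s * (4 * B), fun q hq => ?_⟩
  have h1 := H286.phi_zero_lower hΨ hB0 hB h.two hq
  have h2 : phi Ψ lam ε q = -ε * Real.log (rho q) + phi Ψ lam 0 q := by
    simp only [phi]
    ring
  have h3 : max (-Real.log (rho q)) 0 ≤ |Real.log (rho q)| :=
    max_le (neg_le_abs _) (abs_nonneg _)
  have h4 : -((ε + B) * |Real.log (rho q)|) - 4 * B ≤ phi Ψ lam ε q := by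
    rw [h2]
    nlinarith [le_abs_self (Real.log (rho q)), h.pos]
  have h5 := Nat.le_ceil (s * (ε + B))
  nlinarith [abs_nonneg (Real.log (rho q))]

/-- the geometry of the bundles -/
theorem Wt.isCex (h : Wt Ψ lam ε) (hs : 0 < s)
    (hno : ¬ S.BiholomorphicToBoundedDomain (MMg (DDG W) (chi W Ψ lam ε s))) :
    ∃ g Γ, IsCex (MMg (DDG W) (chi W Ψ lam ε s)) g Γ := by
  obtain ⟨CΨ, Λ, hΨ⟩ := h.psi
  obtain ⟨ε0, C0, C3, C4, h0, h1, h3, h4, hU⟩ :=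
    phiG_uniformJets (W := W) CΨ _ Ψ hΨ lam ε h.two h.pos s hs
  obtain ⟨C, hf⟩ := goodExhaustion_DDG (W := W)
  obtain ⟨g, Γ, hM, hS, hKm, hΓ, hC, ⟨a, b, ha, hab, hab'⟩⟩ := disc_bundle (DDG W) isOpen_DDG
    convex_DDG DDG_nonempty PhiG PhiG_contDiffOn exG C hf ε0 C0 C3 C4 h0 h1 h3 h4 _ h.smooth hU
  refine ⟨fun p X Y => g p X Y, fun p X Y => Γ p X Y, hM, hS, transfer_kaehler hM hKm,
    transfer_leviCivita hM hKm.toIsRiemannianMetric hΓ, transfer_complete hC,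
    ⟨a, b, ha, hab, fun p hp X Y hXY => ?_⟩, hno⟩
  rw [transfer_sectional (differentiableAt_of_open hM hΓ.smooth hp)]
  exact hab' p hp X Y hXY

lemma mem_DD_I : ((0 : ℂ), Complex.I) ∈ DD := by
  show 0 < rho (0, Complex.I)
  simp [rho]

/-- **Bounded holomorphic maps to the same dimension have a critical point.** -/
theorem Wt.critical (h : Wt Ψ lam ε) (hs : (3 + Module.finrank ℂ W) / 2 ≤ s * ε)
    (F : ((ℂ × ℂ) × W) × ℂ → ((ℂ × ℂ) × W) × ℂ)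
    (hF : DifferentiableOn ℂ F (MMg (DDG W) (chi W Ψ lam ε s)))
    (hC : ∃ C : ℝ, ∀ x ∈ MMg (DDG W) (chi W Ψ lam ε s), ‖F x‖ ≤ C) :
    ∃ p ∈ MMg (DDG W) (chi W Ψ lam ε s), ∃ v, v ≠ 0 ∧ fderiv ℂ F p v = 0 := by
  by_contra hcon
  push Not at hcon
  obtain ⟨C, hC⟩ := hC
  obtain ⟨J, hJ, hJ0, C', hJC⟩ := exists_jac _ h.smooth.continuousOn F hF hC fun q hq v hv => by
    by_contra hv0
    exact hcon _ (GNot.mem_MMg_zero hq) v hv0 hv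
  set c : ℝ := (3 + Module.finrank ℂ W) / 2 with hc
  have hc0 : 0 < c := by positivity
  have hs0 : 0 < s := by
    by_contra h1
    push Not at h1
    nlinarith [h.pos]
  have hcs : c / s ≤ ε := by rwa [div_le_iff₀ hs0, mul_comm]
  obtain ⟨t0, ht0, ht⟩ := h.small (ε + c / s) (by have := h.pos; positivity) (by linarith)
  obtain ⟨L, hL, hLJ⟩ := exists_log isOpen_DD convex_DD_aux ⟨_, mem_DD_I⟩ hJ hJ0
  set τ : ℝ := t0 / 2 / s with hτ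
  have hτ0 : 0 < τ := by positivity
  refine Complex.exp_ne_zero _ (ht (t0 / 2) (half_pos ht0) (half_lt_self ht0)
    (fun q => Complex.exp (τ * L q)) ((hL.const_mul _).cexp)
    ⟨Real.exp (τ * Real.log C'), fun q hq => ?_⟩ _ mem_DD_I)
  have h1 := hJC q hq
  have h2 : s * phi Ψ lam ε q - c * Real.log (rho q) = s * phi Ψ lam (ε + c / s) q := by
    simp only [phi]
    field_simp
    ring
  rw [chi_zero, h2, ← hLJ q hq, Complex.norm_exp] at h1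
  have hC' : 0 < C' := by
    by_contra h3
    push Not at h3
    nlinarith [Real.exp_pos (L q).re, Real.exp_pos (s * phi Ψ lam (ε + c / s) q)]
  rw [← Real.exp_log hC', ← Real.exp_add, Real.exp_le_exp] at h1
  rw [Complex.norm_exp, ← Real.exp_add, Real.exp_le_exp, Complex.re_ofReal_mul]
  have h4 : t0 / 2 = τ * s := by
    rw [hτ]
    field_simp
  rw [h4]
  nlinarith

end Vale.Agent.N250
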